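import Crest.Agent.X212.Nd18.Api
import Crest.Agent.X212.Dgr80.Pw
import Crest.Agent.X212.Dgr80.Win
import Crest.Agent.X212.Sob92.NemF

/-!
# Row 212, NKA (helper63): product structure, derivatives and integrals on a neck
-/

set_option autoImplicit false
set_option linter.unusedSectionVars false
noncomputable section
open scoped Manifold ContDiff Topology InnerProductSpace
open MeasureTheory Set Function Filter

namespace Crest.Agent.X212.Nka63
open An Cyf70 Dgr80 Sob92 Nd18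
open Cyc79 (Cy Sep)
open Wz78 (fL curv)

/-! ### depth `> d` -/

/-- depth `> d` -/
def Dq (p q : Option ℝ) (d : ℝ) : Set ℝ := Jv (p.map (· + d)) (q.map (· - d))

section time
variable {p q : Option ℝ} {d d' s : ℝ}

theorem mem_Dq : s ∈ Dq p q d ↔ (∀ a ∈ p, a + d < s) ∧ ∀ b ∈ q, s < b - d := by
  cases p <;> cases q <;> simp [Dq, Jv]

theorem isOpen_Dq : IsOpen (Dq p q d) := isOpen_Jv

theorem Dq_zero : Dq p q 0 = Jv p q := by simp [Dq]

theorem Dq_sub_Dp : Dq p q d ⊆ Dp p q d := fun _ h =>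
  ⟨fun a ha => ((mem_Dq.1 h).1 a ha).le, fun b hb => ((mem_Dq.1 h).2 b hb).le⟩

theorem Dp_sub_Dq (h : d < d') : Dp p q d' ⊆ Dq p q d := fun _ k =>
  mem_Dq.2 ⟨fun a ha => by linarith [k.1 a ha], fun b hb => by linarith [k.2 b hb]⟩

theorem Dq_mono (h : d ≤ d') : Dq p q d' ⊆ Dq p q d := fun _ k =>
  mem_Dq.2 ⟨fun a ha => by linarith [(mem_Dq.1 k).1 a ha],
    fun b hb => by linarith [(mem_Dq.1 k).2 b hb]⟩

theorem Dq_sub (hd : 0 ≤ d) : Dq p q d ⊆ Jv p q := Dq_zero (p := p) (q := q) ▸ Dq_mono hd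

theorem exists_Dp (h : s ∈ Dq p q d) : ∃ d' > d, s ∈ Dp p q d' := by
  rw [mem_Dq] at h
  cases p <;> cases q <;> simp only [Dp, Option.mem_def, reduceCtorEq, false_imp_iff, implies_true,
    true_and, and_true, Option.some.injEq, forall_eq', mem_ofPred_eq] at h ⊢
  · exact ⟨d + 1, by linarith⟩
  · rename_i b; exact ⟨b - s, by linarith, by linarith⟩
  · rename_i a; exact ⟨s - a, by linarith, by linarith⟩
  · rename_i a b
    exact ⟨min (s - a) (b - s), lt_min (by linarith) (by linarith),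
      by linarith [min_le_left (s - a) (b - s)], by linarith [min_le_right (s - a) (b - s)]⟩

theorem ct_zero' (h : s ∉ Dq p q d) : ct p q d s = 0 := by
  rw [mem_Dq, not_and_or] at h
  push Not at h
  rcases h with ⟨a, rfl, h⟩ | ⟨b, rfl, h⟩
  · rw [ct, Option.elim_some, Real.smoothTransition.zero_of_nonpos (by linarith), zero_mul]
  · rw [ct, Option.elim_some, Real.smoothTransition.zero_of_nonpos (by linarith), mul_zero]

theorem ct_pos (h : s ∈ Dq p q d) : 0 < ct p q d s := by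
  rw [mem_Dq] at h
  refine mul_pos ?_ ?_
  · cases p with
    | none => exact one_pos
    | some a => exact Real.smoothTransition.pos_of_pos (by linarith [h.1 a rfl])
  · cases q with
    | none => exact one_pos
    | some b => exact Real.smoothTransition.pos_of_pos (by linarith [h.2 b rfl])

theorem dtf_one' (h : s ∈ Dq p q 1) : deriv (tf p q) s = 1 :=
  let ⟨_, h1, h2⟩ := exists_Dp h
  dtf_one h1 h2

theorem dct_zero (h : s ∈ Dq p q (d + 1)) : deriv (ct p q d) s = 0 := by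
  rw [EventuallyEq.deriv_eq (f := fun _ => (1 : ℝ))
    (mem_of_superset (isOpen_Dq.mem_nhds h) fun _ k => ct_one (Dq_sub_Dp k)), deriv_const]

theorem dtf_zero (hl : ∀ a ∈ p, ∀ b ∈ q, a + 2 ≤ b) (h : s ∉ Dp p q (1 / 2)) :
    deriv (tf p q) s = 0 := image_eq_zero_of_notMem_tsupport fun e => h (tsupport_dtf hl e)

theorem Dp_none : Dp none none d = univ := by simp [Dp]

theorem Dq_none : Dq none none d = univ := by simp [Dq, Jv]

end time

/-! ### functions of a time function -/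

section comp
variable {E : Type} [NormedAddCommGroup E] [NormedSpace ℝ E] [FiniteDimensional ℝ E]
  [MeasurableSpace E] [BorelSpace E]
  {HM : Type} [TopologicalSpace HM] {I : ModelWithCorners ℝ E HM}
  {M : Type} [TopologicalSpace M] [ChartedSpace HM M] [IsManifold I ∞ M] [MeasurableSpace M]
  [T2Space M] [BorelSpace M] {ι : Type} [Fintype ι]
  {N : Type} [NormedAddCommGroup N] [NormedSpace ℝ N] {F : Pre I M ι} {τ : M → ℝ}

theorem D_time (hτ : Sm I τ) {g : ℝ → N} (hg : ContDiff ℝ ∞ g) (a : ι) :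
    F.D a (fun x => g (τ x)) = fun x => F.D a τ x • deriv g (τ x) := by
  rw [D_comp hg hτ]
  funext x
  rw [← fderiv_apply_one_eq_deriv, ← map_smul, smul_eq_mul, mul_one]

/-- the constant of the chain rule for functions of time -/
def cT (T : ℕ → ℝ) : ℕ → ℝ
  | 0 => 1
  | k + 1 => 1 + 2 ^ (k + 1) * |T k| * cT T k

theorem one_le_cT (T : ℕ → ℝ) : ∀ k, 1 ≤ cT T k
  | 0 => le_rfl
  | k + 1 => by
    have := one_le_cT T k
    unfold cT
    exact le_add_of_nonneg_right (by positivity)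

theorem CB_time (hτ : Sm I τ) {T : ℕ → ℝ} (hT : ∀ a, F.CBs (F.D a τ) T) (k : ℕ) :
    ∀ {g : ℝ → N} {C : ℝ}, ContDiff ℝ ∞ g → (∀ i ≤ k, ∀ t, ‖iteratedDeriv i g t‖ ≤ C) →
      F.CB k (fun x => g (τ x)) (cT T k * C) := by
  induction k with
  | zero => exact fun _ h => CB_zero.2 fun x => by simpa [cT] using h 0 le_rfl (τ x)
  | succ k ih =>
    intro g C hg h
    have h0 : 0 ≤ C := (norm_nonneg _).trans (h 0 (Nat.zero_le _) 0)
    have hc := one_le_cT T k
    have hd := (contDiff_infty_iff_deriv.1 hg).2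
    refine CB_succ.2 ⟨fun x => (show ‖g (τ x)‖ ≤ C by simpa using h 0 (Nat.zero_le _) (τ x)).trans
      (le_mul_of_one_le_left h0 (one_le_cT T _)), fun a => ?_⟩
    rw [D_time hτ hg]
    refine CB_mono (CB_bil (ContinuousLinearMap.lsmul ℝ ℝ) (hT a).1 (sm_comp hd hτ) ((hT a).2 k)
      (ih hd fun i hi t => by rw [← iteratedDeriv_succ']; exact h _ (by omega) t)) ?_
    have := ContinuousLinearMap.opNorm_lsmul_le (𝕜 := ℝ) (R := ℝ) (E := N)
    rw [abs_of_nonneg (mul_nonneg (by linarith) h0)]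
    calc _ ≤ 2 ^ (k + 1) * 1 * |T k| * (cT T k * C) := by gcongr
      _ = 2 ^ (k + 1) * |T k| * cT T k * C := by ring
      _ ≤ _ := mul_le_mul_of_nonneg_right (le_add_of_nonneg_left zero_le_one) h0

theorem prd_mono [DecidableEq ι] {F : Fr I M ι} {a₀ : ι} {O O' : Set M} (P : Prd F τ a₀ O)
    (h : IsOpen O') (e : O' ⊆ O) : Prd F τ a₀ O' :=
  ⟨h, P.sτ, fun x hx => P.dτ x (e hx), fun x hx => P.P x (e hx), fun x hx => P.c1 x (e hx),
    fun x hx => P.c2 x (e hx), fun x hx => P.c3 x (e hx), fun x hx => P.dP x (e hx),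
    fun x hx => P.dv x (e hx), fun x hx => P.ddv x (e hx)⟩

theorem pn_mono [DecidableEq ι] {lam : Type} [Fintype lam] {B : Base M ι lam} {G : Geo I M ι lam}
    {a₀ : ι} {O O' : Set M} (P : PN B G τ a₀ O) (h : IsOpen O') (e : O' ⊆ O) : PN B G τ a₀ O' :=
  ⟨prd_mono P.toPrd h e, P.hB, P.hG, fun x hx => P.fL x (e hx)⟩

end comp

/-! ### necks -/

variable {E3 : Type} [NormedAddCommGroup E3] [NormedSpace ℝ E3] [FiniteDimensional ℝ E3]
  [MeasurableSpace E3] [BorelSpace E3]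
  {H3 : Type} [TopologicalSpace H3] {I3 : ModelWithCorners ℝ E3 H3} [I3.Boundaryless]
  {Y : Type} [TopologicalSpace Y] [ChartedSpace H3 Y] [IsManifold I3 ∞ Y] [T2Space Y]
  [MeasurableSpace Y] [BorelSpace Y] [SecondCountableTopology Y] [CompactSpace Y]
  {κ : Type} [Fintype κ] {lam : Type} [Fintype lam]
  {E : Type} [NormedAddCommGroup E] [NormedSpace ℝ E] [FiniteDimensional ℝ E]
  [MeasurableSpace E] [BorelSpace E]
  {HM : Type} [TopologicalSpace HM] {I : ModelWithCorners ℝ E HM}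
  {M : Type} [TopologicalSpace M] [ChartedSpace HM M] [IsManifold I ∞ M] [MeasurableSpace M]
  [T2Space M] [BorelSpace M] {N : Type} [NormedAddCommGroup N] [NormedSpace ℝ N]
  {D : YD I3 Y κ lam} {B : Base M (Option κ) lam} {G : Geo I M (Option κ) lam}

/-- the connection of the line is smooth on the cross-section -/
theorem sm_a (hD : D.OK) (a : κ) : Sm I3 (D.a a) :=
  sm_slice_fst (u := D.G.a (some a)) (fun x => hD.G.con.sm (some a) x) 0

theorem curv_none (hD : D.OK) (a : Option κ) (z : Y × ℝ) :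
    curv (IC I3) D.Z.e D.Z.c D.G.a none a z = 0 := by
  have h0 : ∀ b, Sob92.dv (IC I3) (D.Z.e b) (D.G.a none) z = 0 := fun b => congrFun (dv_const _) _
  have h1 : Sob92.dv (IC I3) (D.Z.e none) (D.G.a a) z = 0 := by
    cases a with
    | none => exact h0 none
    | some a => exact congrFun (D_none_fst D.F.toPre (sm_a hD a)) z
  have h2 : D.G.a none z = 0 := rfl
  rw [curv, h0, h1, h2]
  simp [cyl, cc]

section nk
variable (K : Nk D B G) {d d' : ℝ} {x : M}

/-- the part of the neck of depth `> d` -/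
def O (d : ℝ) : Set M := K.tm ⁻¹' Dq K.p K.q d

theorem isOpen_O : IsOpen (O K d) := isOpen_Dq.preimage K.cont

theorem O_sub_dp : O K d ⊆ K.dp d := preimage_mono Dq_sub_Dp

theorem dp_sub_O (h : d < d') : K.dp d' ⊆ O K d := preimage_mono (Dp_sub_Dq h)

theorem O_mono (h : d ≤ d') : O K d' ⊆ O K d := preimage_mono (Dq_mono h)

theorem dp_mono (h : d ≤ d') : K.dp d' ⊆ K.dp d := preimage_mono (Dp_mono h)

theorem O_zero : O K 0 = K.ψ.target := by rw [O, Dq_zero, K.tgt]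

theorem O_sub (hd : 0 ≤ d) : O K d ⊆ K.ψ.target := O_zero K ▸ O_mono K hd

theorem O_sub_int : O K d ⊆ interior (K.dp d) := interior_maximal (O_sub_dp K) (isOpen_O K)

theorem ψ_mem_O {z : Y × ℝ} (hd : 0 ≤ d) (hz : z.2 ∈ Dq K.p K.q d) : K.ψ z ∈ O K d := by
  rw [O, mem_preimage, K.tm_ψ z (K.mem_src.2 (Dq_sub hd hz))]; exact hz

theorem τ_eq (hx : x ∈ O K 1) : K.τ x = K.tm x := K.τ_eq (O_sub_dp K hx)

theorem χ_one (hx : x ∈ O K 2) : K.χ x = 1 := K.χ_one (O_sub_dp K hx)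

theorem χ_zero (hx : x ∉ O K 1) : K.χ x = 0 := ct_zero' hx

theorem mem_O_of_χ (h : K.χ x ≠ 0) : x ∈ O K 1 := by_contra fun e => h (χ_zero K e)

theorem χ_pos (hx : x ∈ O K 1) : 0 < K.χ x := ct_pos hx

theorem χ_mem (x : M) : K.χ x ∈ Icc (0 : ℝ) 1 := ct_mem

theorem ext_zero (f : Y → N) (hx : x ∉ O K 1) : K.ext f x = 0 := by
  rw [Nk.ext, χ_zero K hx, zero_smul]

theorem cut_τ_zero (hd : 1 ≤ d) (hx : x ∉ O K d) : K.cut d (K.τ x) = 0 :=
  (K.cut_τ hd x).trans (ct_zero' hx)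

theorem cut_τ_one (hd : 0 ≤ d) (hx : x ∈ K.dp (d + 1)) : K.cut d (K.τ x) = 1 := by
  rw [K.τ_eq (dp_mono K (by linarith) hx)]; exact ct_one hx

theorem tsupport_cut : tsupport (fun x => K.cut d (K.tm x)) ⊆ K.dp d :=
  closure_minimal (fun _ h => by_contra fun e => h (ct_zero e)) K.isClosed_dp

theorem tsupport_χ : tsupport K.χ ⊆ K.dp 1 := tsupport_cut K

theorem tsupport_ext (f : Y → N) : tsupport (K.ext f) ⊆ K.dp 1 :=
  closure_minimal (fun _ h => by_contra fun e => h (K.ext_zero f e)) K.isClosed_dp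

/-- the curvature of the line has no `dt` component on the neck -/
theorem fL_none [I.Boundaryless] (hD : D.OK) (hx : x ∈ K.ψ.target) (a : Option κ) :
    fL B G x (none, a) = 0 := by
  have h := K.rel'.curv hx (A := G.a) (A' := D.G.a) (fun b =>
    (K.ψ.open_target.eventually_mem hx).mono fun y hy => by
      rw [← K.a b _ (K.ψ.map_target hy), K.ψ.right_inv hy]) none a
  rw [fL, h, curv_none hD]
  simp

/-- **(a)** the product neck, on the interior of the part of depth `≥ 1` -/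
theorem pn_int [I.Boundaryless] [DecidableEq κ] (hD : D.OK) (hB : B.OK I) (hG : G.OK B) :
    PN B G K.τ none (interior (K.dp 1)) :=
  ⟨K.prd hD hG.vol, hB, hG, fun _ hx => fL_none K hD (K.dp_sub one_pos (interior_subset hx))⟩

/-- **(a)** the product neck -/
theorem pn [I.Boundaryless] [DecidableEq κ] (hD : D.OK) (hB : B.OK I) (hG : G.OK B)
    (hd : 1 ≤ d) : PN B G K.τ none (O K d) :=
  pn_mono (pn_int K hD hB hG) (isOpen_O K) ((O_mono K hd).trans (O_sub_int K))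

/-! ### derivatives -/

theorem push_ψ (u : Y × ℝ → N) {z : Y × ℝ} (hz : z ∈ K.ψ.source) : K.push u (K.ψ z) = u z := by
  rw [Nk.push, pull_of_mem (φ := K.ψ.symm) (K.ψ.map_source hz), K.ψ.left_inv hz]

theorem push_of_mem (u : Y × ℝ → N) (hx : x ∈ K.ψ.target) : K.push u x = u (K.ψ.symm x) :=
  pull_of_mem (φ := K.ψ.symm) hx u

theorem push_of_notMem (u : Y × ℝ → N) (hx : x ∉ K.ψ.target) : K.push u x = 0 :=
  pull_of_notMem (φ := K.ψ.symm) hx u

theorem sm_push (hd : 0 < d) {u : Y × ℝ → N} (h : Sm (IC I3) u)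
    (hu : ∀ z, z.2 ∉ Dp K.p K.q d → u z = 0) : Sm I (K.push u) :=
  sm_pull (iso_symm K.iso) h (K.adm hd hu)

theorem D_push (hd : 0 < d) {u : Y × ℝ → N} (h : Sm (IC I3) u)
    (hu : ∀ z, z.2 ∉ Dp K.p K.q d → u z = 0) (a : Option κ) :
    G.F.D a (K.push u) = K.push (D.Z.D a u) := D_pull (iso_symm K.iso) h (K.adm hd hu) a

theorem sm_χ : Sm I K.χ := K.cb_χ.choose_spec.1

theorem sm_ext {f : Y → N} (hf : Sm I3 f) : Sm I (K.ext f) := (K.cb_ext hf).choose_spec.1

theorem D_ext_some {f : Y → N} (hf : Sm I3 f) (a : κ) :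
    G.F.D (some a) (K.ext f) = K.ext (D.F.D a f) := by
  have h1 := sm_snd (I := I3) (Y := Y) (contDiff_ct (p := K.p) (q := K.q) (d := 1))
  rw [K.ext_eq, K.ext_eq, D_push K one_pos (u := fun z => K.cut 1 z.2 • f z.1) (h1.smul (sm_fst hf))
    fun z hz => by rw [show K.cut 1 z.2 = 0 from ct_zero hz, zero_smul]]
  congr 1
  funext z
  refine (dv_smul (h1.mdifferentiableAt (by simp)) ((sm_fst hf).mdifferentiableAt (by simp))).trans ?_
  have e1 := congrFun (D_some_snd D.F.toPre (contDiff_ct (p := K.p) (q := K.q) (d := 1)) a) z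
  have e2 := congrFun (D_some_fst D.F.toPre hf a) z
  exact (congrArg₂ (fun s v => s • f z.1 + K.cut 1 z.2 • v) e1 e2).trans (by simp)

theorem D_ext_none {f : Y → N} (hf : Sm I3 f) (x : M) :
    G.F.D none (K.ext f) x = deriv (K.cut 1) (K.tm x) • f (K.ψ.symm x).1 := by
  have h1 := sm_snd (I := I3) (Y := Y) (contDiff_ct (p := K.p) (q := K.q) (d := 1))
  rw [K.ext_eq, D_push K one_pos (u := fun z => K.cut 1 z.2 • f z.1) (h1.smul (sm_fst hf))
    fun z hz => by rw [show K.cut 1 z.2 = 0 from ct_zero hz, zero_smul]]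
  by_cases hx : x ∈ K.ψ.target
  · rw [push_of_mem K _ hx, ← K.snd_symm hx]
    refine (dv_smul (h1.mdifferentiableAt (by simp))
      ((sm_fst hf).mdifferentiableAt (by simp))).trans ?_
    have e1 := congrFun (D_none_snd D.F.toPre (contDiff_ct (p := K.p) (q := K.q) (d := 1)))
      (K.ψ.symm x)
    have e2 := congrFun (D_none_fst D.F.toPre hf) (K.ψ.symm x)
    exact (congrArg₂ (fun s v => s • f (K.ψ.symm x).1 + K.cut 1 (K.ψ.symm x).2 • v) e1 e2).trans
      (by simp)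
  · rw [push_of_notMem K _ hx, image_eq_zero_of_notMem_tsupport (f := deriv (K.cut 1)) fun e =>
      hx (K.dp_sub one_pos (tsupport_ct (tsupport_deriv_subset e))), zero_smul]

theorem D_ext_none_zero {f : Y → N} (hf : Sm I3 f) (hx : x ∈ O K 2) :
    G.F.D none (K.ext f) x = 0 := by
  rw [D_ext_none K hf, show deriv (K.cut 1) (K.tm x) = 0 from dct_zero (by norm_num; exact hx),
    zero_smul]

theorem sm_time {g : ℝ → N} (hg : ContDiff ℝ ∞ g) : Sm I fun x => g (K.τ x) := sm_comp hg K.sm_τ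

theorem D_time_some {g : ℝ → N} (hg : ContDiff ℝ ∞ g) (a : κ) :
    G.F.D (some a) (fun x => g (K.τ x)) = 0 := by
  rw [D_time K.sm_τ hg, K.D_τ_some]; funext x; simp

theorem D_time_ne {g : ℝ → N} (hg : ContDiff ℝ ∞ g) (a : Option κ) (x : M) (ha : a ≠ none) :
    G.F.D a (fun x => g (K.τ x)) x = 0 := by
  cases a with
  | none => exact (ha rfl).elim
  | some a => exact congrFun (D_time_some K hg a) x

theorem D_time_none {g : ℝ → N} (hg : ContDiff ℝ ∞ g) (x : M) :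
    G.F.D none (fun x => g (K.τ x)) x = deriv (tf K.p K.q) (K.tm x) • deriv g (K.τ x) := by
  rw [D_time K.sm_τ hg, K.D_τ_none]

theorem D_time_none' {g : ℝ → N} (hg : ContDiff ℝ ∞ g) (hx : x ∈ O K 1) :
    G.F.D none (fun x => g (K.τ x)) x = deriv g (K.τ x) := by
  rw [D_time_none K hg, dtf_one' hx, one_smul]

theorem χ_eq : K.χ = fun x => K.cut 1 (K.τ x) := funext fun x => (K.cut_τ le_rfl x).symm

theorem D_χ_some (a : κ) : G.F.D (some a) K.χ = 0 := by
  rw [χ_eq]; exact D_time_some K contDiff_ct a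

/-- transport of a function with the cut-off `tf'`, which is `1` at depth `> 1` -/
def ex2 (f : Y → N) : M → N := K.push fun z => deriv (tf K.p K.q) z.2 • f z.1

theorem ex2_eq (f : Y → N) (hx : x ∈ O K 1) : ex2 K f x = f (K.ψ.symm x).1 := by
  rw [ex2, push_of_mem K _ (O_sub K zero_le_one hx), K.snd_symm (O_sub K zero_le_one hx),
    dtf_one' hx, one_smul]

end nk

/-! ### uniform bounds -/

section unif
variable (D)

/-- **(b)** functions of the time -/
theorem cbs_time : ∃ c : ℕ → ℝ, (∀ k, 1 ≤ c k) ∧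
    AllNk D fun {_ _ _ _ _ _ _ _ _ _ _ _ _ _ _ _ _ G} K =>
      ∀ (g : ℝ → N) (C : ℕ → ℝ), ContDiff ℝ ∞ g →
        (∀ k, ∀ i ≤ k, ∀ t, ‖iteratedDeriv i g t‖ ≤ C k) →
        G.F.CBs (fun x => g (K.τ x)) fun k => c k * C k := by
  obtain ⟨T, hT⟩ := cbs_Dτ D
  exact ⟨cT T, one_le_cT T, fun K g C hg h =>
    ⟨sm_time K hg, fun k => CB_time K.sm_τ (hT K) k hg (h k)⟩⟩

/-- **(b)** real functions of the time -/
theorem cbs_bd : ∃ c : ℕ → ℝ, (∀ k, 1 ≤ c k) ∧
    AllNk D fun {_ _ _ _ _ _ _ _ _ _ _ _ _ _ _ _ _ G} K =>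
      ∀ (g : ℝ → ℝ) (C : ℕ → ℝ), BD g C → G.F.CBs (fun x => g (K.τ x)) fun k => c k * C k :=
  let ⟨c, h1, h2⟩ := cbs_time (N := ℝ) D
  ⟨c, h1, fun K g C hg => h2 K g C hg.1 hg.2⟩

/-- **(b)** the cut-off -/
theorem cbs_χ : ∃ C, AllNk D fun {_ _ _ _ _ _ _ _ _ _ _ _ _ _ _ _ _ G} K => G.F.CBs K.χ C :=
  (cbs_cut D).imp fun _ h => fun K => h K 1 one_pos

/-- **(b)** cut-off functions of the global time -/
theorem cbs_cut_τ : ∃ C, AllNk D fun {_ _ _ _ _ _ _ _ _ _ _ _ _ _ _ _ _ G} K =>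
    ∀ d, G.F.CBs (fun x => K.cut d (K.τ x)) C :=
  let ⟨_, _, h⟩ := cbs_bd D
  let ⟨C, hC⟩ := bd_ct
  ⟨_, fun K d => h K _ C (hC _ _ d)⟩

theorem cbs_ex2 {f : Y → N} (hf : Sm I3 f) : ∃ C, AllNk D
    fun {_ _ _ _ _ _ _ _ _ _ _ _ _ _ _ _ _ G} K => G.F.CBs (ex2 K f) C := by
  obtain ⟨C, hC⟩ := bd_dtf
  obtain ⟨A, hA⟩ := Cht98.Cb_fst D.F.toPre (Cb_of_compact (F := D.F.toPre) hf)
  refine ⟨fun k => abs (2 ^ (k + 1) * ‖(ContinuousLinearMap.lsmul ℝ ℝ : ℝ →L[ℝ] N →L[ℝ] N)‖ *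
    |C k| * |A k|), fun K => ?_⟩
  have h1 := (hC K.p K.q).cyl D.F.toPre
  exact K.CBs_push one_half_pos ⟨h1.1.smul hA.1, fun k =>
    CB_bil (ContinuousLinearMap.lsmul ℝ ℝ) h1.1 hA.1 (h1.2 k) (hA.2 k)⟩
    fun z hz => by rw [dtf_zero K.len hz, zero_smul]

/-- **(b)** derivatives of `K.fn g` -/
theorem cbs_D_fn {g : Option (Y → ℝ)} (hg : OF I3 g) : ∃ C, AllNk D
    fun {_ _ _ _ _ _ _ _ _ _ _ _ _ _ _ _ _ G} K => ∀ a, G.F.CBs (G.F.D a (K.fn g)) C := by
  cases g with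
  | none => exact cbs_Dτ D
  | some g =>
    obtain ⟨C, hC⟩ := cbs_ext D (hg g rfl)
    exact ⟨fun k => C (k + 1), fun K a => ⟨Pre.sm_D _ (hC K).1 a, fun k => CB_D ((hC K).2 _) a⟩⟩

/-- separated supports, with a uniform separating function -/
theorem sep_unif {f f' : Y → ℝ} (h : Sep D.F.toPre f f') : ∃ C, AllNk D
    fun {_ _ _ _ _ _ _ _ _ M _ _ _ _ _ _ _ G} K => ∃ φ : M → ℝ, G.F.CBs φ C ∧
      (∀ x, K.ext f x ≠ 0 → 1 ≤ φ x) ∧ ∀ x, K.ext f' x ≠ 0 → φ x ≤ 0 := by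
  obtain ⟨-, -, φ, ⟨_, h1, -⟩, h2, h3⟩ := h
  obtain ⟨C, hC⟩ := cbs_ex2 D h1
  refine ⟨C, fun K => ⟨ex2 K φ, hC K, fun x hx => ?_, fun x hx => ?_⟩⟩
  · rw [ex2_eq K φ (mem_O_of_χ K (left_ne_zero_of_smul hx))]
    exact h2 _ (right_ne_zero_of_smul hx)
  · rw [ex2_eq K φ (mem_O_of_χ K (left_ne_zero_of_smul hx))]
    exact h3 _ (right_ne_zero_of_smul hx)

end unif

section ok
variable (K : Nk D B G)

theorem cb_time {g : ℝ → N} {C : ℕ → ℝ} (hg : ContDiff ℝ ∞ g)
    (h : ∀ k, ∀ i ≤ k, ∀ t, ‖iteratedDeriv i g t‖ ≤ C k) : G.F.Cb fun x => g (K.τ x) :=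
  let ⟨_, _, h'⟩ := cbs_time (N := N) D
  ⟨_, h' K g C hg h⟩

theorem sep {f f' : Y → ℝ} (h : Sep D.F.toPre f f') : Sep G.F.toPre (K.ext f) (K.ext f') :=
  let ⟨C, hC⟩ := sep_unif D h
  let ⟨φ, h1, h2⟩ := hC K
  ⟨K.cb_ext h.1.choose_spec.1, K.cb_ext h.2.1.choose_spec.1, φ, ⟨C, h1⟩, h2⟩

theorem laOK_of {t : La Y} (h : La.OK D.F t) : laOK I3 t := by
  cases t with
  | mul f => exact h.choose_spec.1
  | G => trivial

/-- **(d)** -/
theorem ok_cyc {d : Cy Y} (h : d.OK D.F) : (K.cyc d).OK G.F :=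
  ⟨sep K h.sep, K.ok_las fun t ht => laOK_of (h.w t ht), K.ok_las fun t ht => laOK_of (h.w' t ht)⟩

end ok

/-! ### the cylinder itself -/

section cylinder
variable (D) {d : ℝ}

@[simp] theorem nk_tm : D.nk.tm = Prod.snd := rfl

@[simp] theorem nk_ψ (z : Y × ℝ) : D.nk.ψ z = z := rfl

@[simp] theorem nk_ψ_symm (z : Y × ℝ) : D.nk.ψ.symm z = z := rfl

theorem nk_target : D.nk.ψ.target = univ := rfl

theorem nk_source : D.nk.ψ.source = univ := rfl

theorem nk_J : D.nk.J = univ := by simp [Nk.J, YD.nk, Jv]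

@[simp] theorem nk_τ : D.nk.τ = Prod.snd := funext fun _ => tf_none

@[simp] theorem nk_cut (s : ℝ) : D.nk.cut d s = 1 := ct_none

@[simp] theorem nk_χ (z : Y × ℝ) : D.nk.χ z = 1 := ct_none

@[simp] theorem nk_ext (f : Y → N) : D.nk.ext f = fun z => f z.1 :=
  funext fun z => by rw [Nk.ext, nk_χ, one_smul]; rfl

theorem nk_push (u : Y × ℝ → N) : D.nk.push u = u := funext fun z => push_ψ D.nk u (mem_univ z)

theorem nk_O : O D.nk d = univ := by rw [O]; exact congrArg _ Dq_none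

theorem nk_dp : D.nk.dp d = univ := by rw [Nk.dp]; exact congrArg _ Dp_none

theorem nk_pb {r : ℕ} (c : Cfg (Y × ℝ) (Option κ) lam r) : D.nk.pb c = c := rfl

/-- the cylinder is a product neck everywhere -/
theorem nk_pn [DecidableEq κ] (hD : D.OK) : PN D.B D.G Prod.snd none univ := by
  have := pn D.nk hD hD.B hD.G le_rfl
  rwa [nk_τ, nk_O] at this

end cylinder

end Crest.Agent.X212.Nka63
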