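import Crest.Agent.X212.Nka63.A

/-!
# Row 212, NKA (helper63): integrals over a neck
-/

set_option autoImplicit false
set_option linter.unusedSectionVars false
noncomputable section
open scoped Manifold ContDiff Topology InnerProductSpace ENNReal
open MeasureTheory Set Function Filter

namespace Crest.Agent.X212.Nka63
open An Cyf70 Dgr80 Sob92 Nd18

section iso
variable {E : Type} [NormedAddCommGroup E] [NormedSpace ℝ E] [FiniteDimensional ℝ E]
  [MeasurableSpace E] [BorelSpace E]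
  {HM : Type} [TopologicalSpace HM] {I : ModelWithCorners ℝ E HM}
  {M : Type} [TopologicalSpace M] [ChartedSpace HM M] [IsManifold I ∞ M]
  [MeasurableSpace M] [T2Space M] [BorelSpace M] {ι : Type} [Fintype ι]
  {E' : Type} [NormedAddCommGroup E'] [NormedSpace ℝ E'] [FiniteDimensional ℝ E']
  [MeasurableSpace E'] [BorelSpace E']
  {HM' : Type} [TopologicalSpace HM'] {I' : ModelWithCorners ℝ E' HM'}
  {M' : Type} [TopologicalSpace M'] [ChartedSpace HM' M'] [IsManifold I' ∞ M']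
  [MeasurableSpace M'] [T2Space M'] [BorelSpace M']
  {N : Type} [NormedAddCommGroup N] [NormedSpace ℝ N]
  {F : Pre I M ι} {F' : Pre I' M' ι} {φ : OpenPartialHomeomorph M M'}

theorem aem (μ : Measure M) : AEMeasurable φ (μ.restrict φ.source) :=
  φ.continuousOn.aemeasurable φ.open_source.measurableSet

theorem aesm_comp (h : Iso F F' φ) {g : M' → N}
    (hg : AEStronglyMeasurable g (F'.μ.restrict φ.target)) :
    AEStronglyMeasurable (fun x => g (φ x)) (F.μ.restrict φ.source) :=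
  (h.μ ▸ hg : AEStronglyMeasurable g ((F.μ.restrict φ.source).map φ)).comp_aemeasurable (aem _)

theorem aesm_comp_iff (h : Iso F F' φ) {g : M' → N} :
    AEStronglyMeasurable (fun x => g (φ x)) (F.μ.restrict φ.source) ↔
      AEStronglyMeasurable g (F'.μ.restrict φ.target) :=
  ⟨fun k => (aesm_comp (iso_symm h) k).congr <| by
    filter_upwards [ae_restrict_mem φ.open_target.measurableSet] with y hy
    rw [φ.right_inv hy], aesm_comp h⟩

theorem integrableOn_comp_iff (h : Iso F F' φ) {g : M' → N} :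
    IntegrableOn (fun x => g (φ x)) φ.source F.μ ↔ IntegrableOn g φ.target F'.μ := by
  have key : AEStronglyMeasurable g (F'.μ.restrict φ.target) →
      (IntegrableOn (fun x => g (φ x)) φ.source F.μ ↔ IntegrableOn g φ.target F'.μ) := fun k => by
    rw [IntegrableOn, IntegrableOn, ← h.μ] at *
    exact (integrable_map_measure k (aem _)).symm
  exact ⟨fun k => (key ((aesm_comp_iff h).1 k.1)).1 k, fun k => (key k.1).2 k⟩

/-- change of variables, without any hypothesis on `g` -/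
theorem setIntegral_comp (h : Iso F F' φ) (g : M' → N) :
    ∫ x in φ.source, g (φ x) ∂F.μ = ∫ y in φ.target, g y ∂F'.μ := by
  by_cases k : AEStronglyMeasurable g (F'.μ.restrict φ.target)
  · rw [← h.μ] at k ⊢
    exact (integral_map (aem _) k).symm
  · rw [integral_non_aestronglyMeasurable k,
      integral_non_aestronglyMeasurable fun e => k ((aesm_comp_iff h).1 e)]

theorem lintegral_comp_le (h : Iso F F' φ) (g : M' → ℝ≥0∞) :
    ∫⁻ y in φ.target, g y ∂F'.μ ≤ ∫⁻ x in φ.source, g (φ x) ∂F.μ := by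
  rw [← h.μ]; exact lintegral_map_le g φ

theorem setLIntegral_comp (h : Iso F F' φ) (g : M' → ℝ≥0∞) :
    ∫⁻ x in φ.source, g (φ x) ∂F.μ = ∫⁻ y in φ.target, g y ∂F'.μ := by
  refine le_antisymm ((lintegral_comp_le (iso_symm h) _).trans (le_of_eq ?_))
    (lintegral_comp_le h g)
  exact setLIntegral_congr_fun φ.open_target.measurableSet fun y hy => by
    simp only [φ.right_inv hy]

theorem integrable_pull_iff (h : Iso F F' φ) {g : M' → N} :
    Integrable (pull φ g) F.μ ↔ IntegrableOn g φ.target F'.μ :=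
  (integrable_indicator_iff φ.open_source.measurableSet).trans (integrableOn_comp_iff h)

theorem integral_pull' (h : Iso F F' φ) (g : M' → N) :
    ∫ x, pull φ g x ∂F.μ = ∫ y in φ.target, g y ∂F'.μ :=
  (integral_indicator φ.open_source.measurableSet).trans (setIntegral_comp h g)

theorem aesm_pull (h : Iso F F' φ) {g : M' → N}
    (hg : AEStronglyMeasurable g (F'.μ.restrict φ.target)) : AEStronglyMeasurable (pull φ g) F.μ :=
  (aestronglyMeasurable_indicator_iff φ.open_source.measurableSet).2 (aesm_comp h hg)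

end iso

variable {E3 : Type} [NormedAddCommGroup E3] [NormedSpace ℝ E3] [FiniteDimensional ℝ E3]
  [MeasurableSpace E3] [BorelSpace E3]
  {H3 : Type} [TopologicalSpace H3] {I3 : ModelWithCorners ℝ E3 H3} [I3.Boundaryless]
  {Y : Type} [TopologicalSpace Y] [ChartedSpace H3 Y] [IsManifold I3 ∞ Y] [T2Space Y]
  [MeasurableSpace Y] [BorelSpace Y] [SecondCountableTopology Y] [CompactSpace Y]
  {κ : Type} [Fintype κ] {lam : Type} [Fintype lam]
  {E : Type} [NormedAddCommGroup E] [NormedSpace ℝ E] [FiniteDimensional ℝ E]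
  [MeasurableSpace E] [BorelSpace E]
  {HM : Type} [TopologicalSpace HM] {I : ModelWithCorners ℝ E HM}
  {M : Type} [TopologicalSpace M] [ChartedSpace HM M] [IsManifold I ∞ M] [MeasurableSpace M]
  [T2Space M] [BorelSpace M] {N : Type} [NormedAddCommGroup N] [NormedSpace ℝ N]
  {D : YD I3 Y κ lam} {B : Base M (Option κ) lam} {G : Geo I M (Option κ) lam}

instance fin_μ (F : Pre I3 Y κ) : IsFiniteMeasure F.μ :=
  haveI := F.fin
  inferInstance

variable (D) in
/-- the volume of the cross-section -/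
def vY : ℝ := D.F.μ.real univ

variable (D) in
theorem vY_nonneg : 0 ≤ vY D := measureReal_nonneg

variable (K : Nk D B G) {d : ℝ}

theorem meas_J : MeasurableSet K.J := isOpen_Jv.measurableSet

theorem restrict_src : D.Z.μ.restrict K.ψ.source = D.F.μ.prod (volume.restrict K.J) := by
  rw [K.src]
  refine (Measure.prod_restrict (μ := D.F.μ) (ν := volume) univ K.J).symm.trans ?_
  rw [Measure.restrict_univ]

theorem integrableOn_tgt {h : M → N} :
    IntegrableOn h K.ψ.target G.F.μ ↔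
      Integrable (fun z => h (K.ψ z)) (D.F.μ.prod (volume.restrict K.J)) := by
  rw [← integrableOn_comp_iff K.iso, IntegrableOn, restrict_src]

theorem setIntegral_tgt (h : M → N) :
    ∫ x in K.ψ.target, h x ∂G.F.μ = ∫ z, h (K.ψ z) ∂D.F.μ.prod (volume.restrict K.J) := by
  rw [← setIntegral_comp K.iso, restrict_src]

theorem setLIntegral_tgt (h : M → ℝ≥0∞) :
    ∫⁻ x in K.ψ.target, h x ∂G.F.μ = ∫⁻ z, h (K.ψ z) ∂D.F.μ.prod (volume.restrict K.J) := by
  rw [← setLIntegral_comp K.iso, restrict_src]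

theorem integral_eq_prod {h : M → N} (h0 : ∀ x ∉ K.ψ.target, h x = 0) :
    ∫ x, h x ∂G.F.μ = ∫ z, h (K.ψ z) ∂D.F.μ.prod (volume.restrict K.J) := by
  rw [← setIntegral_tgt, setIntegral_eq_integral_of_forall_compl_eq_zero h0]

theorem integrable_iff_prod {h : M → N} (h0 : ∀ x ∉ K.ψ.target, h x = 0) :
    Integrable h G.F.μ ↔ Integrable (fun z => h (K.ψ z)) (D.F.μ.prod (volume.restrict K.J)) := by
  rw [← integrableOn_tgt]
  exact (integrableOn_iff_integrable_of_support_subset fun x hx =>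
    by_contra fun e => hx (h0 x e)).symm

/-- **(c)** Fubini on a neck, cross-sections inside -/
theorem integral_neck {h : M → N} (hi : Integrable h G.F.μ) (h0 : ∀ x ∉ K.ψ.target, h x = 0) :
    ∫ x, h x ∂G.F.μ = ∫ t in K.J, ∫ y, h (K.ψ (y, t)) ∂D.F.μ := by
  rw [integral_eq_prod K h0]
  exact integral_prod_symm _ ((integrable_iff_prod K h0).1 hi)

/-- **(c)** Fubini on a neck, time inside -/
theorem integral_neck' {h : M → N} (hi : Integrable h G.F.μ) (h0 : ∀ x ∉ K.ψ.target, h x = 0) :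
    ∫ x, h x ∂G.F.μ = ∫ y, (∫ t in K.J, h (K.ψ (y, t))) ∂D.F.μ := by
  rw [integral_eq_prod K h0]
  exact integral_prod _ ((integrable_iff_prod K h0).1 hi)

theorem integrableOn_slice {h : M → N} (hi : Integrable h G.F.μ)
    (h0 : ∀ x ∉ K.ψ.target, h x = 0) :
    IntegrableOn (fun t => ∫ y, h (K.ψ (y, t)) ∂D.F.μ) K.J :=
  ((integrable_iff_prod K h0).1 hi).integral_prod_right

/-- Tonelli on a neck -/
theorem lintegral_neck {h : M → ℝ≥0∞} (hm : AEMeasurable h (G.F.μ.restrict K.ψ.target)) :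
    ∫⁻ x in K.ψ.target, h x ∂G.F.μ = ∫⁻ t in K.J, ∫⁻ y, h (K.ψ (y, t)) ∂D.F.μ := by
  rw [setLIntegral_tgt]
  refine lintegral_prod_symm _ ?_
  rw [← restrict_src, ← K.iso.μ] at *
  exact hm.comp_aemeasurable (aem _)

theorem integrable_push_iff {u : Y × ℝ → N} :
    Integrable (K.push u) G.F.μ ↔ Integrable u (D.F.μ.prod (volume.restrict K.J)) := by
  rw [integrable_pull_iff (iso_symm K.iso), ← restrict_src]; rfl

theorem integral_push (u : Y × ℝ → N) :
    ∫ x, K.push u x ∂G.F.μ = ∫ z, u z ∂D.F.μ.prod (volume.restrict K.J) := by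
  rw [integral_pull' (iso_symm K.iso), ← restrict_src]; rfl

theorem integrable_push {u : Y × ℝ → N} (hu : Integrable u D.Z.μ) :
    Integrable (K.push u) G.F.μ := (integrable_pull_iff (iso_symm K.iso)).2 hu.integrableOn

theorem integral_push' {u : Y × ℝ → N} (h0 : ∀ z, z.2 ∉ K.J → u z = 0) :
    ∫ x, K.push u x ∂G.F.μ = ∫ z, u z ∂D.Z.μ := by
  rw [integral_pull' (iso_symm K.iso)]
  exact setIntegral_eq_integral_of_forall_compl_eq_zero fun z hz => h0 z fun e => hz (K.mem_src.2 e)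

theorem push_tm {g : ℝ → N} (h0 : ∀ s ∉ K.J, g s = 0) :
    K.push (fun z => g z.2) = fun x => g (K.tm x) := funext fun x => by
  by_cases hx : x ∈ K.ψ.target
  · rw [push_of_mem K _ hx, K.snd_symm hx]
  · rw [push_of_notMem K _ hx, h0 _ fun e => hx (K.tgt ▸ e)]

/-- functions of time which vanish off the neck -/
theorem integrable_tm {g : ℝ → N} (hg : Integrable g) (h0 : ∀ s ∉ K.J, g s = 0) :
    Integrable (fun x => g (K.tm x)) G.F.μ := by
  rw [← push_tm K h0, integrable_push_iff]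
  exact hg.integrableOn.comp_snd _

theorem integral_tm {g : ℝ → N} (h0 : ∀ s ∉ K.J, g s = 0) :
    ∫ x, g (K.tm x) ∂G.F.μ = vY D • ∫ s, g s := by
  rw [← push_tm K h0, integral_push, integral_fun_snd,
    setIntegral_eq_integral_of_forall_compl_eq_zero h0, vY]

theorem time_χ (g : ℝ → ℝ) (x : M) : g (K.τ x) * K.χ x = g (K.tm x) * K.cut 1 (K.tm x) := by
  by_cases hx : x ∈ K.dp 1
  · rw [K.τ_eq hx]; rfl
  · rw [K.χ_zero hx, show K.cut 1 (K.tm x) = 0 from ct_zero hx, mul_zero, mul_zero]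

theorem integrable_mul_cut {g : ℝ → ℝ} (hg : Integrable g) (d : ℝ) :
    Integrable fun s => g s * K.cut d s :=
  hg.mul_bdd (c := 1) contDiff_ct.continuous.aestronglyMeasurable (.of_forall fun s => by
    rw [Real.norm_of_nonneg ct_mem.1]; exact ct_mem.2)

theorem integrable_time_χ {g : ℝ → ℝ} (hg : Integrable g) :
    Integrable (fun x => g (K.τ x) * K.χ x) G.F.μ := by
  simp only [time_χ]
  exact integrable_tm K (integrable_mul_cut K hg 1) fun s hs => by
    rw [show K.cut 1 s = 0 from ct_zero fun e => hs (Dp_sub one_pos e), mul_zero]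

theorem integral_time_χ (g : ℝ → ℝ) :
    ∫ x, g (K.τ x) * K.χ x ∂G.F.μ = vY D * ∫ s, g s * K.cut 1 s := by
  simp only [time_χ]
  exact integral_tm K (g := fun s => g s * K.cut 1 s) fun s hs => by
    rw [show K.cut 1 s = 0 from ct_zero fun e => hs (Dp_sub one_pos e), mul_zero]

/-- **(c)** -/
theorem integral_time_χ_le {g : ℝ → ℝ} (hg : Integrable g) (h0 : ∀ s, 0 ≤ g s) :
    ∫ x, g (K.τ x) * K.χ x ∂G.F.μ ≤ vY D * ∫ s, g s := by
  rw [integral_time_χ]
  exact mul_le_mul_of_nonneg_left (integral_mono (integrable_mul_cut K hg 1) hg fun s =>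
    mul_le_of_le_one_right (h0 s) ct_mem.2) (vY_nonneg D)

section bdd
variable {h : M → N} {C : ℝ} {g : ℝ → ℝ}

theorem le_ind (h0 : ∀ x ∉ K.dp 1, h x = 0) (hC : ∀ x ∈ K.dp 1, ‖h x‖ ≤ C) (x : M) :
    ‖g (K.τ x) • h x‖ ≤ |C| * (Dp K.p K.q 1).indicator (fun s => |g s|) (K.tm x) := by
  by_cases hx : x ∈ K.dp 1
  · rw [indicator_of_mem (show K.tm x ∈ Dp K.p K.q 1 from hx), norm_smul, K.τ_eq hx, mul_comm]
    exact mul_le_mul_of_nonneg_right ((hC x hx).trans (le_abs_self C)) (abs_nonneg _)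
  · rw [h0 x hx, indicator_of_notMem (show K.tm x ∉ Dp K.p K.q 1 from hx)]; simp

theorem integrable_ind (hg : Integrable g) :
    Integrable (fun x => (Dp K.p K.q 1).indicator (fun s => |g s|) (K.tm x)) G.F.μ :=
  integrable_tm K (hg.abs.indicator isClosed_Dp.measurableSet) fun _ hs =>
    indicator_of_notMem (fun e => hs (Dp_sub one_pos e)) _

/-- bounded functions which vanish at depth `< 1` are integrable against functions of time -/
theorem integrable_time (hg : Integrable g) (hc : Measurable g) (hm : AEStronglyMeasurable h G.F.μ)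
    (h0 : ∀ x ∉ K.dp 1, h x = 0) (hC : ∀ x ∈ K.dp 1, ‖h x‖ ≤ C) :
    Integrable (fun x => g (K.τ x) • h x) G.F.μ :=
  ((integrable_ind K hg).const_mul |C|).mono'
    ((hc.comp K.sm_τ.continuous.measurable).aestronglyMeasurable.smul hm)
    (.of_forall (le_ind K h0 hC))

theorem norm_integral_time_le (hg : Integrable g) (h0 : ∀ x ∉ K.dp 1, h x = 0)
    (hC : ∀ x ∈ K.dp 1, ‖h x‖ ≤ C) :
    ‖∫ x, g (K.τ x) • h x ∂G.F.μ‖ ≤ |C| * (vY D * ∫ s, |g s|) := by
  refine (norm_integral_le_of_norm_le ((integrable_ind K hg).const_mul |C|)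
    (.of_forall (le_ind K h0 hC))).trans ?_
  rw [integral_const_mul, integral_tm K fun _ hs =>
    indicator_of_notMem (fun e => hs (Dp_sub one_pos e)) _, smul_eq_mul]
  refine mul_le_mul_of_nonneg_left (mul_le_mul_of_nonneg_left ?_ (vY_nonneg D)) (abs_nonneg _)
  exact integral_mono (hg.abs.indicator isClosed_Dp.measurableSet) hg.abs fun s =>
    indicator_le_self' (fun _ _ => abs_nonneg _) s

variable {δ : ℝ}

/-- **(c)** window integrability -/
theorem wi (hδ : 0 < δ) (hm : AEStronglyMeasurable h G.F.μ) (h0 : ∀ x ∉ K.dp 1, h x = 0)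
    (hC : ∀ x ∈ K.dp 1, ‖h x‖ ≤ C) : WI G.F.μ K.τ δ h :=
  ⟨K.sm_τ.continuous.aestronglyMeasurable, hm,
    integrable_time K (h := fun x => ‖h x‖) (C := C) (integrable_b hδ) (continuous_b δ).measurable
      hm.norm (fun x hx => by rw [h0 x hx, norm_zero]) fun x hx => by
        rw [norm_norm]; exact hC x hx⟩

/-- the window integral is bounded independently of the neck -/
theorem norm_wn_le (hδ : 0 < δ) (h0 : ∀ x ∉ K.dp 1, h x = 0) (hC : ∀ x ∈ K.dp 1, ‖h x‖ ≤ C)
    (t : ℝ) : ‖wn G.F.μ K.τ δ h t‖ ≤ |C| * vY D := by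
  have := norm_integral_time_le K (g := fun s => b δ (s - t)) ((integrable_b hδ).comp_sub_right t)
    h0 hC
  simp only [abs_of_pos (b_pos hδ _)] at this
  rwa [integral_sub_right_eq_self (b δ) t, integral_b hδ, mul_one] at this

theorem norm_wnd_le (hδ : 0 < δ) (hm : AEStronglyMeasurable h G.F.μ) (h0 : ∀ x ∉ K.dp 1, h x = 0)
    (hC : ∀ x ∈ K.dp 1, ‖h x‖ ≤ C) (k : ℕ) (t : ℝ) :
    ‖wnd G.F.μ K.τ δ k h t‖ ≤ cb δ k * (|C| * vY D) :=
  ((wi K hδ hm h0 hC).norm_wnd_le hδ k t).trans (mul_le_mul_of_nonneg_left ((le_abs_self _).trans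
    (norm_wn_le K (h := fun x => ‖h x‖) hδ (fun x hx => by rw [h0 x hx, norm_zero])
      (fun x hx => by rw [norm_norm]; exact hC x hx) t)) (cb_nonneg _ _))

theorem zero_of_χ (hC : ∀ x, ‖h x‖ ≤ C * K.χ x) : ∀ x ∉ K.dp 1, h x = 0 := fun x hx =>
  norm_le_zero_iff.1 ((hC x).trans (by rw [K.χ_zero hx, mul_zero]))

theorem le_of_χ (hC : ∀ x, ‖h x‖ ≤ C * K.χ x) : ∀ x ∈ K.dp 1, ‖h x‖ ≤ |C| := fun x _ =>
  (hC x).trans ((mul_le_mul_of_nonneg_right (le_abs_self C) (χ_mem K x).1).trans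
    (mul_le_of_le_one_right (abs_nonneg C) (χ_mem K x).2))

/-- **(c)** window integrability of functions dominated by the cut-off -/
theorem wi_χ (hδ : 0 < δ) (hm : AEStronglyMeasurable h G.F.μ) (hC : ∀ x, ‖h x‖ ≤ C * K.χ x) :
    WI G.F.μ K.τ δ h := wi K hδ hm (zero_of_χ K hC) (le_of_χ K hC)

theorem norm_wn_le_χ (hδ : 0 < δ) (hC : ∀ x, ‖h x‖ ≤ C * K.χ x) (t : ℝ) :
    ‖wn G.F.μ K.τ δ h t‖ ≤ |C| * vY D := by
  simpa using norm_wn_le K hδ (zero_of_χ K hC) (le_of_χ K hC) t

/-- the window integral in the coordinates of the neck -/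
theorem wn_eq (hδ : 0 < δ) (hw : WI G.F.μ K.τ δ h) (h0 : ∀ x ∉ K.dp 1, h x = 0) (t : ℝ) :
    wn G.F.μ K.τ δ h t = ∫ s in K.J, b δ (s - t) • ∫ y, h (K.ψ (y, s)) ∂D.F.μ := by
  rw [wn, integral_neck K (hw.int hδ t) fun x hx => by
    rw [h0 x fun e => hx (K.dp_sub one_pos e), smul_zero]]
  refine setIntegral_congr_fun (meas_J K) fun s hs => ?_
  rw [← integral_smul]
  congr 1
  funext y
  have hz : (y, s) ∈ K.ψ.source := K.mem_src.2 hs
  by_cases hx : K.ψ (y, s) ∈ K.dp 1
  · rw [K.τ_eq hx, K.tm_ψ _ hz]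
  · rw [h0 _ hx, smul_zero, smul_zero]

end bdd

/-- compact slabs -/
theorem isCompact_slab {a b : ℝ} (h : Icc a b ⊆ K.J) : IsCompact (K.tm ⁻¹' Icc a b) := by
  have h1 : (univ ×ˢ Icc a b : Set (Y × ℝ)) ⊆ K.ψ.source := fun z hz => K.mem_src.2 (h hz.2)
  convert (isCompact_univ.prod isCompact_Icc).image_of_continuousOn (K.ψ.continuousOn.mono h1)
  ext x
  refine ⟨fun hx => ?_, ?_⟩
  · have ht : x ∈ K.ψ.target := K.tgt ▸ h hx
    exact ⟨K.ψ.symm x, ⟨trivial, K.snd_symm ht ▸ hx⟩, K.ψ.right_inv ht⟩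
  · rintro ⟨z, hz, rfl⟩
    rw [mem_preimage, K.tm_ψ z (h1 hz)]
    exact hz.2

theorem measure_slab {S : Set ℝ} (hS : MeasurableSet S) (h : S ⊆ K.J) :
    G.F.μ (K.tm ⁻¹' S) = D.F.μ univ * volume S := by
  have h1 : K.tm ⁻¹' S ⊆ K.ψ.target := K.tgt ▸ preimage_mono h
  have h2 : MeasurableSet (K.tm ⁻¹' S) := K.cont.measurable hS
  rw [← inter_eq_left.2 h1, ← Measure.restrict_apply h2, ← K.iso.μ,
    Measure.map_apply_of_aemeasurable (aem _) h2, Measure.restrict_apply' K.ψ.open_source.measurableSet]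
  have : K.ψ ⁻¹' (K.tm ⁻¹' S) ∩ K.ψ.source = univ ×ˢ S := by
    ext z
    refine ⟨fun hz => ⟨trivial, K.tm_ψ z hz.2 ▸ hz.1⟩, fun hz => ?_⟩
    have hs := K.mem_src.2 (h hz.2)
    exact ⟨by rw [mem_preimage, mem_preimage, K.tm_ψ z hs]; exact hz.2, hs⟩
  rw [this]
  exact Measure.prod_prod _ _

end Crest.Agent.X212.Nka63
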